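import Vale.Agent.P218HC.Pack
import Vale.Agent.P218A1.Base

/-! The solutions on the ends form holomorphic families of functions. -/

noncomputable section

set_option linter.unusedSectionVars false

namespace Vale.Agent.P218HC
open Set Complex Metric Filter Topology Vale.Agent.P218EN Vale.Agent.P218CH
open Vale.Agent.P218HB (Cst HB Lp HF HG)
open Vale.Agent.P218SQ (Pt Adm ofReal)
open Vale.Agent.P218SQ.D7 (Red)
open Vale.Agent.P218TP (GG)
open Vale.Agent.P218A1 (Pack)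
open Vale.Agent.P218CO (VC sgn T3 EndOp)
open Vale.Agent.P218CN (ConeFam j0 jetL norm_jetL_le)
open Vale.Agent.P218GA (E3 Model)
open Vale.Agent.P218VA (E2)
open Vale.Agent.P218ST (strip)
open Vale.Agent.P272.K.LIN

variable {ι τ X V : Type} [Fintype ι] [Fintype τ] [NormedAddCommGroup X] [NormedSpace ℂ X]
  [NormedAddCommGroup V] [NormedSpace ℂ V] {c : Cst}

theorem hf_cone {o : EndOp} {s δ C : ℝ} {RV : Set V} {jv : V → ℝ × ℝ → T3 ℂ} {J : V → Fin 6 → WA}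
    (h : ConeFam o s δ C RV jv J) (hC : 0 ≤ C) {v : (ι → ℝ) → Pt ι τ → V} {vb : Pt ι τ → V}
    (hb : HB c (univ : Set Unit) (fun W z _ => v W z) fun z _ => vb z)
    (hl : Lp c (univ : Set Unit) fun W z _ => v W z)
    (hv : ∀ W z, c.Ok W z → v W z ∈ ball 0 (δ / 2))
    (hvb : ∀ z ∈ ball (0 : Pt ι τ) c.r, vb z ∈ ball 0 (δ / 2)) :
    HF c (1, 0) (0, 1) {p : ℝ × ℝ | s < p.1} (fun W z => j0 (J (v W z))) fun z => j0 (J (vb z)) := by
  have d := half_pos h.pos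
  have e : 2 * (δ / 2) = δ := by ring
  have sub : ball (0 : V) (δ / 2) ⊆ ball 0 δ := ball_subset_ball (half_le_self h.pos.le)
  have n : ∀ p ∈ {p : ℝ × ℝ | s < p.1}, ‖jetL p‖ ≤ 1 := fun p hp =>
    ContinuousLinearMap.opNorm_le_bound _ zero_le_one fun K => by
      rw [one_mul]; exact norm_jetL_le K (h.one_le.trans (le_of_lt hp))
  have m : MapsTo (fun _ : ℝ × ℝ => ()) {p : ℝ × ℝ | s < p.1} univ := mapsTo_univ _ _
  have k1 := hb.comp (Θ := J) (M := C * δ) d (e.symm ▸ h.holo)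
    (e.symm ▸ fun _ hx => h.norm_le hC hx) (fun W z hz _ _ => hv W z hz) fun z hz _ _ => hvb z hz
  have k2 := hl.comp (Θ := J) (M := C * δ) d (e.symm ▸ h.holo)
    (e.symm ▸ fun _ hx => h.norm_le hC hx) fun W z hz _ _ => hv W z hz
  exact ⟨fun W z hz p hp => (h.jet _ (sub (hv W z hz))).contDiffAt h.one_le hp,
    fun z hz p hp => (h.jet _ (sub (hvb z hz))).contDiffAt h.one_le hp,
    ((k1.pre m).map n).congr (fun W z hz p hp => (h.jet _ (sub (hv W z hz))).pj_eq_jetL h.one_le hp)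
      fun z hz p hp => (h.jet _ (sub (hvb z hz))).pj_eq_jetL h.one_le hp,
    (((k2.pre m).map n).clm (ContinuousLinearMap.fst ℂ _ _)).congr fun W z hz p hp =>
      congrArg Prod.fst ((h.jet _ (sub (hv W z hz))).pj_eq_jetL h.one_le hp)⟩

variable {S : Set E3} {w : E3 → ℝ} {δ0 C0 : ℝ} {κ M : Type} [TopologicalSpace M]
  [ChartedSpace E2 M] {m : Model S w δ0 C0 ι κ M} {ε : ι ⊕ κ → Bool} {𝒞 : Cov E2 M} {a K ρ : ℝ}
  {al : (ι → ℝ) → Pt ι τ → ι → ℂ} {x : (ι → ℝ) → Pt ι τ → VC 𝒞 × X} {xb : Pt ι τ → VC 𝒞 × X}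

/-- **the solutions on the ends near a point above the level `a`** -/
theorem hg_OW (P : Pack m ε 𝒞 a K) (h : Red GG K ρ c al x xb) (hρ : 2 * ρ ≤ P.r)
    (hw : a ^ 2 ≤ c.w1) (h0 : xb 0 = 0)
    (hr : ∀ W y, c.Ok W (ofReal y) → (x W (ofReal y)).1.im = 0) (j : ι ⊕ κ) {p : ℝ × ℝ}
    (hp : a < p.1) : ∃ μb : Pt ι τ → ℝ × ℝ → ℂ,
      HG c (1, 0) (0, 1) p (fun W z => P.OW W (al W z) (x W z).1 j) μb ∧ μb 0 =ᶠ[𝓝 p] 0 := by
  have r0 := P.r_pos
  rcases j with i | k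
  · obtain ⟨K0, -, hK⟩ := pack_cyl P h (s := a + 6) (by linarith [h.r_le, c.r_pos]) hw le_rfl
      (by nlinarith [P.big]) h0 hr
    obtain ⟨c', ub, l, h1, h2⟩ := (hK i).u_hf (p.1 + 1)
    have n : strip a (p.1 + 1) ∈ 𝓝 p := (isOpen_strip _ _).mem_nhds ⟨hp, lt_add_one _⟩
    have g := h1.hg l n
    have e : ub 0 =ᶠ[𝓝 p] fun q => (m.U i q : ℂ) := eventually_of_mem n fun q hq => (h2 q hq).1
    refine ⟨fun z q => sgn (ε (.inl i)) * (ub z q - m.U i q),
      ((g.prod (HG.const (g.cdb.congr_of_eventuallyEq e.symm))).clm ((sgn (ε (.inl i)) : ℂ) •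
        (ContinuousLinearMap.fst ℂ ℂ ℂ - ContinuousLinearMap.snd ℂ ℂ ℂ))).congr ?_
        (.of_forall fun _ => .of_forall fun _ _ _ => rfl), e.mono fun q hq => by simp [hq]⟩
    filter_upwards [c.ev_le, c.ev_w1 (p.1 + 1)] with c1 l1 l2
    filter_upwards [n] with q hq W z hz
    have hz' := l1.ok hz
    have := P.ub_add (hw.trans (hz'.1 i).1) (D_anti (hz'.pos i) (by linarith [h.K_pos])
      ((h.mem W z hz').1 i)) (x W z).1 (p := q) ⟨hq.1.le, hq.2.le.trans (l2.trans (hz.1 i).1)⟩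
    change _ = ((sgn (ε (.inl i)) : ℝ) : ℂ) * (P218XI.U0 _ _ q - m.U i q)
    rw [← this, add_sub_cancel_left, P218A1.sgn_mul_sgn]
  · refine ⟨fun z => j0 (P.Jc k (xb z).1), (hf_cone (P.cone k) P.C_nonneg
      (h.hb.clm (ContinuousLinearMap.fst ℂ _ X)) (h.lpx.clm (ContinuousLinearMap.fst ℂ _ X))
      (fun W z hz => mem_ball_zero_iff.2 ((norm_fst_le _).trans_lt ((h.mem W z hz).2.trans_le
        (by linarith)))) fun z hz => mem_ball_zero_iff.2 ((norm_fst_le _).trans_lt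
        ((h.memb z hz).trans_le (by linarith)))).hg Cst.Le.rfl
      ((isOpen_lt continuous_const continuous_fst).mem_nhds hp), .of_forall fun q => ?_⟩
    simp [h0, (P.cone k).zero0]

omit [Fintype ι] in
lemma per_OW (P : Pack m ε 𝒞 a K) (W : ι → ℝ) (α : ι → ℂ) (v : VC 𝒞) (j : ι ⊕ κ) :
    P218MP.Per (P.OW W α v j) := fun u θ => by
  rcases j with i | k
  · exact congrArg (_ * ·) (P218XI.per_e0 _ u θ)
  · exact P218EF.ev_per _ u θ

/-- real points give real solutions -/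
theorem im_OW (P : Pack m ε 𝒞 a K) {W : ι → ℝ} (hW : ∀ i, a ^ 2 ≤ W i) {α : ι → ℂ}
    (hα : α ∈ DD W K) (hα' : ∀ i, (α i).im = 0) {v : VC 𝒞} (hv : v ∈ ball (0 : VC 𝒞) P.r)
    (hv' : v.im = 0) (j : ι ⊕ κ) {p : ℝ × ℝ} (hp : p.1 ∈ P218A1.lev a W j) :
    (P.OW W α v j p).im = 0 := by
  rcases j with i | k
  · have hp' := Ioo_subset_Icc_self hp
    have G := P.prof i (hW i) (hα i)
    have e := congrArg Complex.im (P.ub_add (hW i) (hα i) v hp')
    have e1 : ((P.J i (W i) (α i, v) 0).ev p.1 p.2).im = 0 := by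
      rw [← conj_eq_iff_im, ← WA.ev_cj, (P.fam i).real _ (hW i) (α i, v) ⟨hα i, hv⟩ (hα' i) hv']
    have e2 : (P218XI.prof (α i) p.1).im = 0 := by
      have h1 : 1 - α i * p.1 = ((1 - α i * p.1).re : ℝ) := Complex.ext rfl (by simp [hα' i])
      rw [P218XI.prof, h1, Complex.sqrt_of_nonneg (zero_le_real.2 (G.re _ hp').le)]
      exact ofReal_im _
    rw [P218XI.U0] at e
    cases hε : ε (.inl i) <;> simpa [hε, sgn, e1, e2] using e
  · exact (P.cone k).real0 hv hv' p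

end Vale.Agent.P218HC
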