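import Vale.Agent.P218XI.Col3
import Vale.Agent.P218PB.Joint
import Vale.Agent.P218HB.Calc
import Vale.Agent.P218ST.Hub

/-! Absolute jets as functions, and families of them. -/

noncomputable section

set_option linter.unusedSectionVars false

namespace Vale.Agent.P218HC
open Set Complex Metric Filter Topology Vale.Agent.P218EN Vale.Agent.P218EN.WA Vale.Agent.P218CH
open Vale.Agent.P218XI (e0 jtL U0 prof pj_e0 norm_jtL_le norm_e0_le)
open Vale.Agent.P218CO (J2 jconst cj_add cj_const cj_congr)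
open Vale.Agent.P218HB (Cst HB Lp HF)
open Vale.Agent.P218SQ (Pt)
open Vale.Agent.P218ST (strip)
open Vale.Agent.P218PB (lip_room)

variable {a L w : ℝ} {α : ℂ} {J J' : Fin 6 → WA} {p : ℝ × ℝ}

lemma mu_eq_prof (h : Flat a L α) (hw : w ∈ Icc a L) : P218CH.mu 0 α w = prof α w := by
  have h1 := (h.facts hw).1.trans h.small
  have h2 := (abs_le.1 (abs_re_le_norm (P218CH.mu 0 α w - 1))).1
  have h3 : 0 ≤ (prof α w).re := csqrt_re_nonneg _
  rw [sub_re, one_re] at h2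
  refine (sq_eq_sq_iff_eq_or_eq_neg.1 ((h.m_sq hw).trans (P218XI.prof_sq α w).symm)).resolve_right
    fun e => ?_
  rw [e, neg_re] at h2
  rw [e] at h1
  linarith

lemma U0_eq (h : Flat a L α) (J : Fin 6 → WA) (hp : p.1 ∈ Icc a L) :
    U0 α J p = 1 + e0 (ab a L α J) p := by
  rw [e0, ab, ev_comp, cl_of_mem hp, ev_rp0 h.prof0 h.prof J hp, mu_eq_prof h hp, U0]
  ring

lemma jet_ab (h : Prof a L α) (hJ : Jet a L (Af α) J) : Jet a L (Af 0) (ab a L α J) :=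
  (jet_rp (Prof.zero h.pos) h hJ).congr fun _ => wEq_comp_cl _

lemma jet_smul {A : ℝ → ℂ} (h : Jet a L A J) (t : ℂ) : Jet a L A (t • J) := by
  refine ⟨fun k w hw => ((h.d0 k w hw).const_mul t).congr_deriv ?_, fun k w hw => ?_,
    h.t1.smul t, h.t2.smul t, h.t5.smul t⟩
  · simp [mul_left_comm]
  · simpa [mul_left_comm] using (h.d3 k w hw).const_mul t

lemma jet_add {A : ℝ → ℂ} (h : Jet a L A J) (h' : Jet a L A J') : Jet a L A (J + J') := by
  simpa using h.sub (jet_smul h' (-1))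

lemma cj_e0 (ha : 0 < a) (h : Jet a L (Af 0) J) (hp : p ∈ strip a L) :
    ContDiffAt ℝ 2 (fun q => 1 + e0 J q) p ∧
      P218CO.cj (1, 0) (0, 1) (fun q => 1 + e0 J q) p = jconst 1 + jtL p J := by
  obtain ⟨h1, h2⟩ := pj_e0 ha h hp
  exact ⟨contDiffAt_const.add h1, by rw [cj_add contDiffAt_const h1, cj_const, ← h2]⟩

lemma isOpen_strip (a L : ℝ) : IsOpen (strip a L) := isOpen_Ioo.preimage continuous_fst

section
variable {V : Type*} [NormedAddCommGroup V] [NormedSpace ℂ V] {Y : Fin 3 → V → Fin 6 → WA}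
  {r r' B G : ℝ}

lemma jet_Yt {v : V} (h : ∀ n, Jet a L (Af 0) (Y n v)) (g : ℂ) : Jet a L (Af 0) (Yt Y g v) :=
  jet_add (jet_add (h 0) (jet_smul (h 1) g)) (jet_smul (h 2) _)

lemma diff_Yt (h : ∀ n, DifferentiableOn ℂ (Y n) (ball 0 r)) :
    DifferentiableOn ℂ (fun q : ℂ × V => Yt Y q.1 q.2) (univ ×ˢ ball 0 r) := by
  have k : ∀ n, DifferentiableOn ℂ (fun q : ℂ × V => Y n q.2) (univ ×ˢ ball 0 r) := fun n =>
    (h n).comp differentiableOn_snd fun _ hq => hq.2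
  have f : DifferentiableOn ℂ (fun q : ℂ × V => q.1) (univ ×ˢ ball 0 r) := differentiableOn_fst
  exact ((k 0).fun_add (f.fun_smul (k 1))).fun_add ((f.fun_pow 2).fun_smul (k 2))

lemma norm_Yt_le {v : V} {g : ℂ} (h : ∀ n, ‖Y n v‖ ≤ B) (hg : ‖g‖ ≤ G) :
    ‖Yt Y g v‖ ≤ B + G * B + G ^ 2 * B := by
  have := (norm_nonneg _).trans hg
  refine norm_add_le_of_le (norm_add_le_of_le (h 0) ?_) ?_
  · rw [norm_smul]; gcongr; exact h 1
  · rw [norm_smul, norm_pow]; gcongr; exact h 2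

lemma lip_Yt (h : ∀ n, DifferentiableOn ℂ (Y n) (ball 0 r))
    (hB : ∀ n, ∀ v ∈ ball (0 : V) r, ‖Y n v‖ ≤ B) (hr : r' < r) (G : ℝ) :
    ∃ C : ℝ, 0 ≤ C ∧ ∀ (g g' : ℂ) (v v' : V), ‖g‖ ≤ G → ‖g'‖ ≤ G → v ∈ ball 0 r' → v' ∈ ball 0 r' →
      ‖Yt Y g' v' - Yt Y g v‖ ≤ C * (‖g' - g‖ + ‖v' - v‖) := by
  have ρ0 : 0 < min 1 (r - r') := lt_min one_pos (sub_pos.2 hr)
  refine ⟨|2 * (B + (G + 1) * B + (G + 1) ^ 2 * B) / min 1 (r - r')|, abs_nonneg _,
    fun g g' v v' h1 h2 h3 h4 => ?_⟩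
  have := lip_room (U := ball (0 : ℂ) (G + 1) ×ˢ ball (0 : V) r) (x := (g, v)) (y := (g', v')) ρ0
    ((diff_Yt h).mono (prod_mono (subset_univ _) subset_rfl))
    (fun q hq => norm_Yt_le (fun n => hB n _ hq.2) (mem_ball_zero_iff.1 hq.1).le) (by
      rw [← ball_prod_same]
      refine prod_mono (ball_subset_ball' ?_) (ball_subset_ball' ?_)
      · rw [dist_zero_right]; linarith [min_le_left 1 (r - r')]
      · linarith [min_le_right 1 (r - r'), mem_ball.1 h3])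
    ⟨mem_ball_zero_iff.2 (by linarith), ball_subset_ball hr.le h4⟩
  exact this.trans (mul_le_mul (le_abs_self _) (max_le_add_of_nonneg (norm_nonneg _)
    (norm_nonneg _)) (norm_nonneg _) (abs_nonneg _))

end

variable {ι τ : Type} [Fintype ι] [Fintype τ] {c : Cst}

/-- a family of absolute jets gives a family of functions -/
theorem hf_of_jet (ha : 1 ≤ a) {A : (ι → ℝ) → Pt ι τ → Fin 6 → WA} {Ab : Pt ι τ → Fin 6 → WA}
    (hb : HB c (univ : Set Unit) (fun W z _ => A W z) fun z _ => Ab z)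
    (hl : Lp c (univ : Set Unit) fun W z _ => A W z)
    (hj : ∀ W z, c.Ok W z → Jet a L (Af 0) (A W z))
    (hjb : ∀ z ∈ ball (0 : Pt ι τ) c.r, Jet a L (Af 0) (Ab z))
    {g : (ι → ℝ) → Pt ι τ → ℝ × ℝ → ℂ}
    (hg : ∀ W z, c.Ok W z → ∀ p ∈ strip a L, g W z p = 1 + e0 (A W z) p) :
    HF c (1, 0) (0, 1) (strip a L) g fun z p => 1 + e0 (Ab z) p := by
  have a0 : 0 < a := by linarith
  have ev : ∀ W z, c.Ok W z → ∀ p ∈ strip a L, g W z =ᶠ[𝓝 p] fun q => 1 + e0 (A W z) q :=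
    fun W z hz p hp => eventually_of_mem ((isOpen_strip a L).mem_nhds hp) (hg W z hz)
  have e : ∀ W z, c.Ok W z → ∀ p ∈ strip a L,
      P218CO.cj (1, 0) (0, 1) (g W z) p = jconst 1 + jtL p (A W z) := fun W z hz p hp =>
    (cj_congr (ev W z hz p hp)).trans (cj_e0 a0 (hj W z hz) hp).2
  have n : ∀ p ∈ strip a L, ‖jtL p‖ ≤ 1 := fun p hp =>
    ContinuousLinearMap.opNorm_le_bound _ zero_le_one fun K => by
      rw [one_mul]; exact norm_jtL_le K (ha.trans hp.1.le)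
  have m : MapsTo (fun _ : ℝ × ℝ => ()) (strip a L) univ := mapsTo_univ _ _
  let sum : J2 ℂ × J2 ℂ →L[ℂ] J2 ℂ := ContinuousLinearMap.fst ℂ _ _ + ContinuousLinearMap.snd ℂ _ _
  refine ⟨fun W z hz p hp => (cj_e0 a0 (hj W z hz) hp).1.congr_of_eventuallyEq (ev W z hz p hp),
    fun z hz p hp => (cj_e0 a0 (hjb z hz) hp).1, ?_, ?_⟩
  · exact (((HB.const (k := fun _ => (jconst 1 : J2 ℂ)) fun _ _ => le_rfl).prod
      ((hb.pre m).map n)).clm sum).congr e
      fun z hz p hp => (cj_e0 a0 (hjb z hz) hp).2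
  · exact ((((Lp.const (k := fun _ _ => (jconst 1 : J2 ℂ))).prod ((hl.pre m).map n)).clm
      sum).clm (ContinuousLinearMap.fst ℂ _ _)).congr fun W z hz p hp =>
        congrArg Prod.fst (e W z hz p hp)

end Vale.Agent.P218HC
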