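import Vale.Agent.P218HC.Abs
import Vale.Agent.P218HB.Jet

/-! The cylindrical ends of a holomorphic family of solutions. -/

noncomputable section

set_option linter.unusedSectionVars false

namespace Vale.Agent.P218HC
open Set Complex Metric Filter Topology Vale.Agent.P218EN Vale.Agent.P218EN.WA Vale.Agent.P218CH
open Vale.Agent.P218XI (e0 U0 norm_e0_le)
open Vale.Agent.P218HB (Cst HB Lp HF)
open Vale.Agent.P218SQ (Pt Adm ofReal)
open Vale.Agent.P218ST (strip CylSol)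
open Vale.Agent.P218PB (psi col_big col_rg endFam_joint flat_of_D)
open Vale.Agent.P218TP (GG)

variable {V : Type} [NormedAddCommGroup V] [NormedSpace ℂ V] {a s1 s r r' R K K' L0 C : ℝ}
  {RV : Set V} {Cf : V × (Fin 6 → WA) → WA} {JS : Fin 6 → WA} {Jf : ℝ → ℂ × V → Fin 6 → WA}
  {Y : ℝ → Fin 3 → V → Fin 6 → WA}

/-- above the collar the members of the family solve the homogeneous problem -/
theorem cylSol_of (I : EndIn a s1 r R K RV Cf JS) (F : EndFam a s1 r R K RV Cf JS Jf) {W : ℝ}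
    (hW : a ^ 2 ≤ W) {q : ℂ × V} (hq : q ∈ D W K ×ˢ ball (0 : V) r) (h1 : s1 ≤ s) (h2 : s ≤ W) :
    CylSol a s W q.1 (Jf W q) := by
  have G := col_rg I.toCollar I.hK hW hq.1
  have S := F.sol W hW q hq
  have hs : Icc s W ⊆ Icc a W := Icc_subset_Icc_left (I.le.trans h1)
  have b1 := (col_big I.toCollar).1
  refine ⟨D_anti (by nlinarith) I.hK hq.1, G.mono h2 hs,
    (G.base.restrict S h2 hs).congr_data (fun k w hw => ?_) (fun _ => rfl) S.bc,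
    fun n => ((F.bd W hW q hq n).subset hs).mono (by linarith [I.R_le]), ?_⟩
  · simp [src, fn, co_sc_mul, I.supp _ _ k w (h1.trans hw.1)]
  · simpa [pt_zero, xi, hi, kp, show ¬ (2 : ℝ) ≤ 0 by norm_num] using S.dir 0

variable {ι τ : Type} [Fintype ι] [Fintype τ]

/-- the parameters of the end `i` in a holomorphic family -/
structure CylIn (i : ι) (c : Cst) (K' r' C : ℝ) (RV : Set V) (α : (ι → ℝ) → Pt ι τ → ℂ)
    (v : (ι → ℝ) → Pt ι τ → V) (vb : Pt ι τ → V) : Prop where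
  k_le : c.k ≤ 1
  mem : ∀ W z, c.Ok W z → α W z ∈ D (W i) K' ∧ v W z ∈ ball 0 r'
  memb : ∀ z ∈ ball (0 : Pt ι τ) c.r, vb z ∈ ball 0 r'
  holo : ∀ W, Adm c.w1 W → DifferentiableOn ℂ (α W) (c.dom W)
  lpα : Lp c (univ : Set Unit) fun W z _ => α W z
  hb : HB c (univ : Set Unit) (fun W z _ => v W z) fun z _ => vb z
  lp : Lp c (univ : Set Unit) fun W z _ => v W z
  zero : vb 0 = 0
  real : ∀ W x, c.Ok W (ofReal x) → (α W (ofReal x)).im = 0 ∧ v W (ofReal x) ∈ RV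
  tip : ∀ W z, c.Ok W z → ‖z.1 i - GG (W i) (α W z)‖ ≤ C * W i ^ (-c.k) / W i ^ 2

/-- the properties of a cylindrical end in a holomorphic family -/
structure CylHub (i : ι) (c : Cst) (a s K0 : ℝ) (u0 : ℝ × ℝ → ℂ) (α : (ι → ℝ) → Pt ι τ → ℂ)
    (J : (ι → ℝ) → Pt ι τ → Fin 6 → WA) : Prop where
  le : a ≤ s
  cylSol : ∀ W z, c.Ok W z → CylSol a s (W i) (α W z) (J W z)
  J_holo : ∀ W, Adm c.w1 W → DifferentiableOn ℂ (J W) (c.dom W)
  J_lip : ∀ W, Adm c.w1 W → ∃ L : ℝ, 0 ≤ L ∧ ∀ᶠ W' in 𝓝 W, ∀ z, c.Ok W z → c.Ok W' z →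
    ‖α W' z - α W z‖ ≤ L * ‖W' - W‖ ∧ ∀ n, ∀ v ∈ Icc a (W i), ∀ θ,
      ‖(J W' z n).ev (psi (W i) (W' i - W i) v) θ - (J W z n).ev v θ‖ ≤ L * ‖W' - W‖
  J_real : ∀ W x, c.Ok W (ofReal x) → ∀ n v θ, ((J W (ofReal x) n).ev v θ).im = 0
  u_hf : ∀ L, ∃ (c' : Cst) (ub : Pt ι τ → ℝ × ℝ → ℂ), c'.Le c ∧
    HF c' (1, 0) (0, 1) (strip a L) (fun W z => U0 (α W z) (J W z)) ub ∧
      ∀ p ∈ strip a L, ub 0 p = u0 p ∧ ‖fderiv ℂ (fun z => ub z p) 0‖ ≤ K0 * p.1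

variable {i : ι} {c c' : Cst} {α : (ι → ℝ) → Pt ι τ → ℂ} {v : (ι → ℝ) → Pt ι τ → V}
  {vb : Pt ι τ → V} {W : ι → ℝ} {z : Pt ι τ} {L : ℝ}

namespace CylIn

lemma mono (H : CylIn i c K' r' C RV α v vb) (h : c'.Le c) : CylIn i c' K' r' C RV α v vb :=
  ⟨h.k ▸ H.k_le, fun W z hz => H.mem W z (h.ok hz), fun z hz => H.memb z (h.ball hz),
    fun W hW => (H.holo W (h.adm hW)).mono (h.dom W), H.lpα.mono h subset_rfl,
    H.hb.mono h subset_rfl, H.lp.mono h subset_rfl, H.zero, fun W x hx => H.real W x (h.ok hx),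
    fun W z hz => h.k ▸ H.tip W z (h.ok hz)⟩

variable (H : CylIn i c K' r' C RV α v vb) (I : EndIn a s1 r R K RV Cf JS)
  (F : EndFam a s1 r R K RV Cf JS Jf) (hK : K < K') (hr : r' < r) (hw : a ^ 2 ≤ c.w1)
include H

include hK hr in
lemma mem' (hz : c.Ok W z) : (α W z, v W z) ∈ D (W i) K ×ˢ ball (0 : V) r :=
  ⟨D_anti (hz.pos i) hK.le (H.mem W z hz).1, ball_subset_ball hr.le (H.mem W z hz).2⟩

include F hK hr hw in
lemma J_holo (hW : Adm c.w1 W) :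
    DifferentiableOn ℂ (fun z => Jf (W i) (α W z, v W z)) (c.dom W) :=
  (F.holo _ (hw.trans (hW i).1)).comp ((H.holo W hW).prodMk (H.hb.holo W hW () trivial))
    fun _ hz => H.mem' hK hr ⟨hW, hz⟩

include I F hK hr hw in
lemma lip (hW : Adm c.w1 W) : ∃ A : ℝ, 0 ≤ A ∧ ∀ᶠ W' in 𝓝 W, ∀ z, c.Ok W z → c.Ok W' z →
    (‖α W' z - α W z‖ ≤ A * ‖W' - W‖ ∧ ∀ n, ∀ u ∈ Icc a (W i), ∀ θ,
      ‖(Jf (W' i) (α W' z, v W' z) n).ev (psi (W i) (W' i - W i) u) θ -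
        (Jf (W i) (α W z, v W z) n).ev u θ‖ ≤ A * ‖W' - W‖) ∧ ∀ L, a ≤ L → 15 * L ≤ W i →
      ‖ab a L (α W' z) (Jf (W' i) (α W' z, v W' z)) - ab a L (α W z) (Jf (W i) (α W z, v W z))‖ ≤
        A * ‖W' - W‖ := by
  obtain ⟨A, A0, hA⟩ := endFam_joint I F (hw.trans (hW i).1) hK hr
  obtain ⟨B, B0, hB⟩ := (H.lpα.prod H.lp).nonneg hW
  refine ⟨A * (1 + B) + B, by positivity, ?_⟩
  filter_upwards [(continuous_apply i).continuousAt.eventually hA, hB] with W' h1 h2 z hz hz'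
  have h3 := h2 z hz hz' () trivial
  obtain ⟨-, h4, h5⟩ := h1 (hw.trans (hz'.1 i).1) (α W z, v W z) (H.mem W z hz) (α W' z, v W' z)
    (H.mem W' z hz')
  have h6 : |W' i - W i| ≤ ‖W' - W‖ := norm_le_pi_norm (W' - W) i
  have n0 := norm_nonneg (W' - W)
  have h7 : A * (|W' i - W i| + ‖(α W' z, v W' z) - (α W z, v W z)‖) ≤
      (A * (1 + B) + B) * ‖W' - W‖ := by
    nlinarith [mul_le_mul_of_nonneg_left (add_le_add h6 h3) A0, mul_nonneg B0 n0]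
  refine ⟨⟨((norm_fst_le (_ - _ : ℂ × V)).trans h3).trans ?_, fun n u hu θ =>
    (h4 n u hu θ).trans h7⟩, fun L l1 l2 => (h5 L l1 l2).trans h7⟩
  nlinarith [mul_nonneg (mul_nonneg A0 (add_nonneg zero_le_one B0)) n0]

lemma tip' (hz : c.Ok W z) : ‖GG (W i) (α W z) - z.1 i‖ ≤ |C| * W i ^ (-1 - c.k) := by
  have h0 := hz.pos i
  have h1 : 1 ≤ W i := by linarith [c.ge (hz.1 i).1]
  rw [norm_sub_rev]
  refine (H.tip W z hz).trans ?_
  rw [mul_div_assoc, ← Real.rpow_two, ← Real.rpow_sub h0]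
  exact mul_le_mul (le_abs_self C) (Real.rpow_le_rpow_of_exponent_le h1 (by linarith))
    (by positivity) (abs_nonneg C)

include I F hK hr hw in
/-- convergence of the absolute jets -/
lemma hb_ab (N : Can a s1 r K L0 RV Cf JS Jf Y) (hL : L0 ≤ L) : ∀ᶠ c' in c.sm,
    HB c' (univ : Set Unit) (fun W z _ => ab a L (α W z) (Jf (W i) (α W z, v W z)))
      fun z _ => Yt (Y L) (z.1 i) (vb z) := by
  obtain ⟨B, hB⟩ := N.bdd L hL
  obtain ⟨A, W1, hA⟩ := N.can L hL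
  obtain ⟨A', A0, hA'⟩ := lip_Yt (N.holo L hL) hB hr (c.r + |C|)
  obtain ⟨B', hB'⟩ := H.hb.close
  have aL : a ≤ L := I.le.trans (N.le.trans hL)
  have b1 := (col_big I.toCollar).1
  have g : ∀ z ∈ ball (0 : Pt ι τ) c.r, ‖z.1 i‖ ≤ c.r := fun z hz =>
    (norm_le_pi_norm z.1 i).trans ((norm_fst_le z).trans (mem_ball_zero_iff.1 hz).le)
  filter_upwards [c.ev_le, c.ev_w1 (14 * L), c.ev_w1 W1] with c' l1 l2 l3
  refine ⟨fun W hW _ _ => diff_ab aL (c'.isOpen_dom W) ((H.mono l1).holo W hW) (fun z hz =>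
      flat_of_D (by linarith) (by linarith [I.hK]) aL (l2.trans (hW i).1)
        (H.mem' hK hr (l1.ok ⟨hW, hz⟩)).1) ((H.mono l1).J_holo F hK hr (hw.trans l1.w1) hW),
    fun _ _ => (diff_Yt (N.holo L hL)).comp (f := fun z : Pt ι τ => (z.1 i, vb z))
      (DifferentiableOn.prodMk (by fun_prop) ((H.mono l1).hb.holob () trivial)) fun z hz =>
        ⟨trivial, ball_subset_ball hr.le (H.memb z (l1.ball hz))⟩,
    ⟨_, fun z hz _ _ => norm_Yt_le (fun n => hB n _ (ball_subset_ball hr.le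
      (H.memb z (l1.ball hz)))) (g z (l1.ball hz))⟩,
    |A| + A' * (|C| + B'), fun W z hz' _ _ => ?_⟩
  have hz := l1.ok hz'
  have h0 := hz.pos i
  have h1 : 1 ≤ W i := by linarith [c.ge (hz.1 i).1]
  have h2 : W i ^ (-1 - c.k) ≤ ∑ j, W j ^ (-1 - c.k) :=
    Finset.single_le_sum (f := fun j => W j ^ (-1 - c.k))
      (fun j _ => Real.rpow_nonneg (hz.pos j).le _) (Finset.mem_univ i)
  have h3 : W i ^ (-1 - c.k) ≤ 1 := Real.rpow_le_one_of_one_le_of_nonpos h1 (by linarith [c.k_pos])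
  have h4 := H.tip' hz
  have h5 := g z hz.mem_ball
  have h6 := (hA _ (l3.trans (hz'.1 i).1) _ (H.mem' hK hr hz)).trans (mul_le_mul (le_abs_self A)
    ((Real.rpow_le_rpow_of_exponent_le h1 (by linarith [H.k_le])).trans h2) (by positivity)
    (abs_nonneg A))
  have h7 := hA' (z.1 i) (GG (W i) (α W z)) (vb z) (v W z) (by linarith [abs_nonneg C]) (by
    nlinarith [norm_le_norm_sub_add (GG (W i) (α W z)) (z.1 i), abs_nonneg C])
    (H.memb z hz.mem_ball) (H.mem W z hz).2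
  have h8 := hB' W z hz () trivial
  have h9 := mul_le_mul_of_nonneg_left h2 (abs_nonneg C)
  rw [l1.k]
  refine (norm_sub_le_norm_sub_add_norm_sub _ _ _).trans ((add_le_add h6 h7).trans ?_)
  nlinarith [mul_le_mul_of_nonneg_left (add_le_add (h4.trans h9) h8) A0]

include I hr in
/-- the linear part grows at most linearly -/
lemma deriv_le (N : Can a s1 r K L0 RV Cf JS Jf Y) : ∃ K0 : ℝ, 0 ≤ K0 ∧ ∀ L, L0 ≤ L →
    ∀ p ∈ strip a L, ‖fderiv ℂ (fun z : Pt ι τ => 1 + e0 (Yt (Y L) (z.1 i) (vb z)) p) 0‖ ≤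
      K0 * p.1 := by
  obtain ⟨B0, hB0⟩ := N.bdd L0 le_rfl
  obtain ⟨A, A0, hA⟩ := H.hb.lipb
  have b1 := (col_big I.toCollar).1
  have r0 := I.pos
  have e1 : 0 < ep a := ep_pos (by linarith)
  have B1 := (norm_nonneg _).trans (hB0 0 0 (mem_ball_self r0))
  have A1 : 0 ≤ 2 * ep a / r * A := by positivity
  refine ⟨2 * ep a / r * A + B0 + 2, by positivity, fun L hL p hp => ?_⟩
  obtain ⟨B, hB⟩ := N.bdd L hL
  have B2 := (norm_nonneg _).trans (hB 0 0 (mem_ball_self r0))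
  have p1 : 1 ≤ p.1 := by linarith [hp.1]
  have y1 : ∀ u ∈ ball (0 : V) r, ‖e0 (Y L 1 u) p‖ ≤ B0 + p.1 := fun u hu => by
    rcases le_total p.1 L0 with h | h
    · have := norm_e0_le (Y L0 1 u) p
      rw [← N.compat L0 L le_rfl hL 1 u hu, e0, clp, ev_comp, cl_of_mem ⟨hp.1.le, h⟩,
        N.compat L0 L le_rfl hL 1 u hu] at this
      exact this.trans ((hB0 1 u hu).trans (by linarith))
    · have h1 := N.grow L hL u hu p.1 ⟨h, hp.2.le⟩ p.2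
      have h2 := norm_sub_le ((Y L 1 u 0).ev p.1 p.2 + p.1 / 2) (p.1 / 2)
      rw [add_sub_cancel_right, norm_div, norm_real, Real.norm_of_nonneg (by linarith),
        Complex.norm_two] at h2
      exact h2.trans (by linarith)
  refine (norm_fderiv_le_of_lip' ℂ (C := 2 * ep a / r * A + (B0 + p.1) + 1) (by positivity)
    ?_).trans (by nlinarith)
  filter_upwards [ball_mem_nhds (0 : Pt ι τ) (half_pos c.r_pos),
    ball_mem_nhds (0 : Pt ι τ) (inv_pos.2 (show 0 < B + 1 by linarith))] with z h1 h2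
  rw [mem_ball_zero_iff] at h1 h2
  have m : vb z ∈ ball (0 : V) r := ball_subset_ball hr.le
    (H.memb z (mem_ball_zero_iff.2 (by linarith [c.r_pos])))
  have g : ‖z.1 i‖ ≤ ‖z‖ := (norm_le_pi_norm z.1 i).trans (norm_fst_le z)
  have h3 := (lip_le (N.holo L hL 0) (N.bd0 L hL) m).trans
    (mul_le_mul_of_nonneg_left (by simpa [H.zero] using hA z h1 () trivial) (by positivity))
  have h4 : ‖z‖ * B ≤ 1 := by
    rw [← one_div, lt_div_iff₀ (by linarith)] at h2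
    nlinarith [norm_nonneg z]
  have e : 1 + e0 (Yt (Y L) (z.1 i) (vb z)) p - (1 + e0 (Yt (Y L) ((0 : Pt ι τ).1 i) (vb 0)) p) =
      e0 (Y L 0 (vb z) - Y L 0 0) p + z.1 i * e0 (Y L 1 (vb z)) p
        + z.1 i ^ 2 * e0 (Y L 2 (vb z)) p := by
    simp [e0, Yt, H.zero, ev_add, ev_sub, ev_smul]
    ring
  rw [e, sub_zero]
  refine (norm_add₃_le).trans ?_
  rw [norm_mul, norm_mul, norm_pow]
  have h5 := mul_le_mul g (y1 _ m) (norm_nonneg _) (norm_nonneg _)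
  have h6 : ‖z.1 i‖ ^ 2 * ‖e0 (Y L 2 (vb z)) p‖ ≤ ‖z‖ ^ 2 * B := by
    gcongr; exact (norm_e0_le _ _).trans (hB 2 _ m)
  nlinarith [norm_e0_le (Y L 0 (vb z) - Y L 0 0) p, norm_nonneg z]

end CylIn

/-- **The cylindrical end of a family.** -/
theorem exists_cylHub (I : EndIn a s1 r R K RV Cf JS) (F : EndFam a s1 r R K RV Cf JS Jf)
    (N : Can a s1 r K L0 RV Cf JS Jf Y) (hK : K < K') (hr : r' < r) (hw : a ^ 2 ≤ c.w1)
    (H : CylIn i c K' r' C RV α v vb) (h1 : s1 ≤ s) (h2 : s ≤ c.w1) {u0 : ℝ × ℝ → ℂ}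
    (hu : ∀ p : ℝ × ℝ, a ≤ p.1 → 1 + e0 JS p = u0 p) :
    ∃ K0 : ℝ, 0 ≤ K0 ∧ CylHub i c a s K0 u0 α fun W z => Jf (W i) (α W z, v W z) := by
  obtain ⟨K0, k0, hK0⟩ := H.deriv_le I hr N
  have b1 := (col_big I.toCollar).1
  refine ⟨K0, k0, I.le.trans h1, fun W z hz => cylSol_of I F (hw.trans (hz.1 i).1)
    (H.mem' hK hr hz) h1 (h2.trans (hz.1 i).1), fun W hW => H.J_holo F hK hr hw hW,
    fun W hW => (H.lip I F hK hr hw hW).imp fun A h => ⟨h.1, h.2.mono fun W' h' z hz hz' =>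
      (h' z hz hz').1⟩, fun W x hx n u θ => ?_, fun L => ?_⟩
  · rw [← conj_eq_iff_im, ← ev_cj, F.real _ (hw.trans (hx.1 i).1) _ (H.mem' hK hr hx)
      (H.real W x hx).1 (H.real W x hx).2]
  obtain ⟨L', hL, hL'⟩ : ∃ L', L0 ≤ L' ∧ L ≤ L' := ⟨_, le_max_left _ _, le_max_right _ _⟩
  have aL : a ≤ L' := I.le.trans (N.le.trans hL)
  have ss : strip a L ⊆ strip a L' := fun p hp => ⟨hp.1, hp.2.trans_le hL'⟩
  obtain ⟨c', l1, l2, l3⟩ := Cst.exists_of_ev ((H.hb_ab I F hK hr hw N hL).and (c.ev_w1 (15 * L')))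
  have fl : ∀ W z, c'.Ok W z → Flat a L' (α W z) := fun W z hz =>
    flat_of_D (by linarith) (by linarith [I.hK]) aL (by linarith [(hz.1 i).1])
      (H.mem' hK hr (l1.ok hz)).1
  have key := hf_of_jet (L := L') (by linarith) l2
    (fun W hW => ((H.mono l1).lip I F hK hr (hw.trans l1.w1) hW).imp fun A h => h.2.mono
      fun W' h' z hz hz' _ _ => (h' z hz hz').2 L' aL (l3.trans (hW i).1))
    (fun W z hz => jet_ab (fl W z hz).prof ((F.sol _ (hw.trans (l1.w1.trans (hz.1 i).1)) _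
      (H.mem' hK hr (l1.ok hz))).jet.mono (Icc_subset_Icc_right (by linarith [(hz.1 i).1]))))
    (fun z hz => jet_Yt (fun n => N.jet L' hL n _
      (ball_subset_ball hr.le (H.memb z (l1.ball hz)))) _)
    (g := fun W z => U0 (α W z) (Jf (W i) (α W z, v W z)))
    fun W z hz p hp => U0_eq (fl W z hz) _ ⟨hp.1.le, hp.2.le⟩
  refine ⟨c', _, l1, key.mono Cst.Le.rfl ss, fun p hp => ⟨?_, hK0 L' hL p (ss hp)⟩⟩
  rw [← hu p hp.1.le]
  simp [e0, Yt, H.zero, N.zero L' hL, clp, ev_comp, cl_of_mem ⟨hp.1.le, (ss hp).2.le⟩]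

lemma CylHub.mono {K0 K1 s' : ℝ} {u0 : ℝ × ℝ → ℂ} {J : (ι → ℝ) → Pt ι τ → Fin 6 → WA}
    (h : CylHub i c a s K0 u0 α J) (l : c'.Le c) (h1 : s ≤ s') (h2 : s' ≤ c'.w1) (hK : K0 ≤ K1) :
    CylHub i c' a s' K1 u0 α J := by
  refine ⟨h.le.trans h1, fun W z hz => ?_, fun W hW => (h.J_holo W (l.adm hW)).mono (l.dom W),
    fun W hW => (h.J_lip W (l.adm hW)).imp fun A k => ⟨k.1, k.2.mono fun W' k' z hz hz' =>
      k' z (l.ok hz) (l.ok hz')⟩, fun W x hx => h.J_real W x (l.ok hx), fun L => ?_⟩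
  · have S := h.cylSol W z (l.ok hz)
    have k := h2.trans (hz.1 i).1
    have hs : Icc s' (W i) ⊆ Icc s (W i) := Icc_subset_Icc_left h1
    exact ⟨S.dom, S.rg.mono k hs, (S.rg.base.restrict S.sol k hs).congr_data (wEq_refl _ _)
      (fun _ => rfl) S.sol.bc, fun n => (S.cls n).subset hs, S.pin⟩
  · obtain ⟨c0, ub, l0, k, k'⟩ := h.u_hf L
    obtain ⟨c1, l1, l2⟩ := (l.ev.and l0.ev).exists
    refine ⟨c1, ub, l1, k.mono l2 subset_rfl, fun p hp => ⟨(k' p hp).1, (k' p hp).2.trans ?_⟩⟩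
    have := (h.cylSol _ (0 : Pt ι τ) (Cst.ok_zero (c.adm_const le_rfl))).rg.big
    exact mul_le_mul_of_nonneg_right hK (by linarith [hp.1])

/-- **All cylindrical ends**, in the form of the fields of the hub (with exponent `B = 1`). -/
theorem cyl_fields {K0 : ℝ} {u0 : ι → ℝ × ℝ → ℂ} {α : (ι → ℝ) → Pt ι τ → ι → ℂ}
    {J : (ι → ℝ) → Pt ι τ → ι → Fin 6 → WA}
    (h : ∀ i, CylHub i c a s K0 (u0 i) (fun W z => α W z i) fun W z => J W z i) :
    (∀ W z, c.Ok W z → ∀ i, CylSol a s (W i) (α W z i) (J W z i)) ∧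
    (∀ W, Adm c.w1 W → DifferentiableOn ℂ (J W) (c.dom W)) ∧
    (∀ W z, c.Ok W z → ∃ L : ℝ, ∀ᶠ W' in 𝓝 W, c.Ok W' z → ∀ i,
      ‖α W' z i - α W z i‖ ≤ L * ‖W' - W‖ ∧ ∀ n, ∀ v ∈ Icc s (W i), ∀ θ,
        ‖(J W' z i n).ev (psi (W i) (W' i - W i) v) θ - (J W z i n).ev v θ‖ ≤ L * ‖W' - W‖) ∧
    (∀ W x, c.Ok W (ofReal x) → ∀ i n, ∀ v ∈ Icc s (W i), ∀ θ,
      ((J W (ofReal x) i n).ev v θ).im = 0) ∧
    ∀ i L, ∃ (c' : Cst) (ub : Pt ι τ → ℝ × ℝ → ℂ), c'.Le c ∧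
      HF c' (1, 0) (0, 1) (strip s L) (fun W z => U0 (α W z i) (J W z i)) ub ∧
        ∀ p ∈ strip s L, ub 0 p = u0 i p ∧ ‖fderiv ℂ (fun z => ub z p) 0‖ ≤ K0 * p.1 ^ 1 := by
  refine ⟨fun W z hz i => (h i).cylSol W z hz,
    fun W hW => differentiableOn_pi.2 fun i => (h i).J_holo W hW, fun W z hz => ?_,
    fun W x hx i n v _ θ => (h i).J_real W x hx n v θ, fun i L => ?_⟩
  · choose A A0 hA using fun i => (h i).J_lip W hz.1
    refine ⟨∑ i, A i, (eventually_all.2 hA).mono fun W' k hz' i => ?_⟩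
    have e := mul_le_mul_of_nonneg_right (Finset.single_le_sum (fun j _ => A0 j)
      (Finset.mem_univ i)) (norm_nonneg (W' - W))
    exact ⟨(k i z hz hz').1.trans e, fun n v hv θ =>
      ((k i z hz hz').2 n v ⟨(h i).le.trans hv.1, hv.2⟩ θ).trans e⟩
  · obtain ⟨c0, ub, l0, k, k'⟩ := (h i).u_hf L
    have ss : strip s L ⊆ strip a L := fun p hp => ⟨(h i).le.trans_lt hp.1, hp.2⟩
    exact ⟨c0, ub, l0, k.mono Cst.Le.rfl ss, fun p hp => by simpa using k' p (ss hp)⟩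

end Vale.Agent.P218HC
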