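import Vale.Agent.P218HC.Hub
import Vale.Agent.P218A1.Defs
import Vale.Agent.P218SQ.D7e

/-! The ends of the family in the canonical parameter. -/

noncomputable section

set_option linter.unusedSectionVars false

namespace Vale.Agent.P218HC
open Set Complex Metric Filter Topology Vale.Agent.P218EN Vale.Agent.P218EN.WA Vale.Agent.P218CH
open Vale.Agent.P218XI (e0 U0 prof e0_sub)
open Vale.Agent.P218HB (Cst HB Lp)
open Vale.Agent.P218SQ (Pt Adm ofReal)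
open Vale.Agent.P218SQ.D7 (Red)
open Vale.Agent.P218TP (GG)
open Vale.Agent.P218A1 (Pack)
open Vale.Agent.P218CO (VC sgn)
open Vale.Agent.P218CN (ConeHub tOf)
open Vale.Agent.P218GA (E3 Model)
open Vale.Agent.P218VA (E2)
open Vale.Agent.P272.K.LIN

lemma mu_eq_prof' {a b w : ℝ} {α : ℂ} (h : Prof a b α) (hw : w ∈ Icc a b) :
    P218CH.mu 0 α w = prof α w := by
  have h0 := h.w_pos hw
  have h1 : P218CH.mu 0 α w ^ 2 = 1 - α * w := by simpa using mu_sq' (Prof.zero h.pos) h hw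
  have h2 : 0 ≤ (P218CH.mu 0 α w).re := by
    rw [P218CH.mu, rA, P218XI.sqrt_Af_zero h0.le, div_eq_mul_inv, re_ofReal_mul, inv_re]
    exact mul_nonneg (Real.sqrt_nonneg _) (div_nonneg (csqrt_re_nonneg _) (normSq_nonneg _))
  have h3 : 0 ≤ (prof α w).re := csqrt_re_nonneg _
  refine (sq_eq_sq_iff_eq_or_eq_neg.1 (h1.trans (P218XI.prof_sq α w).symm)).resolve_right
    fun e => ?_
  have h4 := h.re w hw
  rw [e, neg_re] at h2
  rw [← P218XI.prof_sq, sq, mul_re] at h4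
  nlinarith [mul_self_nonneg (prof α w).im]

lemma U0_rp {a b : ℝ} {α : ℂ} (h : Prof a b α) (J : Fin 6 → WA) {p : ℝ × ℝ} (hp : p.1 ∈ Icc a b) :
    U0 α J p = 1 + e0 (rp a b 0 α J) p := by
  rw [e0, ev_rp0 (Prof.zero h.pos) h J hp, mu_eq_prof' h hp, U0]
  ring

variable {ι τ X V : Type} [Fintype ι] [Fintype τ] [NormedAddCommGroup X] [NormedSpace ℂ X]
  [NormedAddCommGroup V] [NormedSpace ℂ V]

/-- the canonical parameter gives the input for every cylindrical end -/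
theorem cylIn_of_red {K ρ : ℝ} {c : Cst} {al : (ι → ℝ) → Pt ι τ → ι → ℂ}
    {x : (ι → ℝ) → Pt ι τ → V × X} {xb : Pt ι τ → V × X} (h : Red GG K ρ c al x xb) {RV : Set V}
    (h0 : xb 0 = 0) (hr : ∀ W y, c.Ok W (ofReal y) → (x W (ofReal y)).1 ∈ RV) :
    ∃ C, ∀ i, CylIn i c (3 * K) ρ C RV (fun W z => al W z i) (fun W z => (x W z).1)
      fun z => (xb z).1 := by
  obtain ⟨C, hC⟩ := h.tip'
  exact ⟨C, fun i => ⟨by rw [h.k_eq]; norm_num, fun W z hz => ⟨(h.mem W z hz).1 i,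
      mem_ball_zero_iff.2 ((norm_fst_le _).trans_lt (h.mem W z hz).2)⟩,
    fun z hz => mem_ball_zero_iff.2 ((norm_fst_le _).trans_lt (h.memb z hz)),
    fun W hW => differentiableOn_pi.1 (h.holo W hW) i, h.lp.clm (ContinuousLinearMap.proj i),
    h.hb.clm (ContinuousLinearMap.fst ℂ V X), h.lpx.clm (ContinuousLinearMap.fst ℂ V X),
    by rw [h0]; rfl, fun W y hy => ⟨h.real W y hy i, hr W y hy⟩, fun W z hz => hC W z hz i⟩⟩

variable {S : Set E3} {w : E3 → ℝ} {δ0 C0 : ℝ} {κ M : Type} [TopologicalSpace M]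
  [ChartedSpace E2 M] {m : Model S w δ0 C0 ι κ M} {ε : ι ⊕ κ → Bool} {𝒞 : Cov E2 M} {a K : ℝ}

/-- the function on a cylindrical end in terms of the profile -/
theorem pack_U0 (P : Pack m ε 𝒞 a K) {W : ι → ℝ} {α : ι → ℂ} {i : ι} (h : Prof a (W i) (α i))
    (v : VC 𝒞) {p : ℝ × ℝ} (hp : p.1 ∈ Icc a (W i)) :
    m.U i p + sgn (ε (.inl i)) * P.OW W α v (.inl i) p =
      U0 (α i) (P.J i (W i) (α i, v)) p := by
  have e : ((sgn (ε (.inl i)) : ℝ) : ℂ) * sgn (ε (.inl i)) = 1 := by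
    cases ε (.inl i) <;> simp [sgn]
  rw [U0_rp h _ hp, ← (P.sj i).e0_eq (P.le.trans hp.1), Pack.OW, Sum.elim_inl, ← mul_assoc, e,
    e0_sub]
  ring

/-- **the cylindrical ends** -/
theorem pack_cyl (P : Pack m ε 𝒞 a K) {ρ s : ℝ} {c : Cst} {al : (ι → ℝ) → Pt ι τ → ι → ℂ}
    {x : (ι → ℝ) → Pt ι τ → VC 𝒞 × X} {xb : Pt ι τ → VC 𝒞 × X} (h : Red GG K ρ c al x xb)
    (hρ : ρ < P.r) (hw : a ^ 2 ≤ c.w1) (h1 : a + 6 ≤ s) (h2 : s ≤ c.w1) (h0 : xb 0 = 0)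
    (hr : ∀ W y, c.Ok W (ofReal y) → (x W (ofReal y)).1.im = 0) :
    ∃ K0 : ℝ, 0 ≤ K0 ∧ ∀ i, CylHub i c a s K0 (fun p => (m.U i p : ℂ)) (fun W z => al W z i)
      fun W z => P.J i (W i) (al W z i, (x W z).1) := by
  obtain ⟨C, hC⟩ := cylIn_of_red h (RV := {v | v.im = 0}) h0 hr
  choose K0 k0 hK using fun i => exists_cylHub (P.endIn i) (P.fam i) (P.can i)
    (by linarith [h.K_pos]) hρ hw (hC i) h1 h2 fun p hp => (P.sj i).e0_eq (P.le.trans hp)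
  exact ⟨∑ i, K0 i, Finset.sum_nonneg fun i _ => k0 i, fun i => (hK i).mono Cst.Le.rfl le_rfl h2
    (Finset.single_le_sum (fun j _ => k0 j) (Finset.mem_univ i))⟩

variable (m) in
/-- **the conical ends** -/
theorem pack_cone [Finite κ] : ∃ Kc : ℝ, ∀ᶠ a in atTop, ∀ (ε : ι ⊕ κ → Bool) (𝒞 : Cov E2 M) (K : ℝ)
    (P : Pack m ε 𝒞 a K) (τ X : Type) [Fintype τ] [NormedAddCommGroup X] [NormedSpace ℂ X] (ρ : ℝ)
    (c : Cst) (al : (ι → ℝ) → Pt ι τ → ι → ℂ) (x : (ι → ℝ) → Pt ι τ → VC 𝒞 × X)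
    (xb : Pt ι τ → VC 𝒞 × X), Red GG K ρ c al x xb → 4 * ρ ≤ P.r → xb 0 = 0 →
    (∀ W y, c.Ok W (ofReal y) → (x W (ofReal y)).1.im = 0) → ∀ j, ConeHub m j c (a + 6) Kc
      (fun W z => tOf m j (sgn (ε (.inr j))) (P.Jc j (x W z).1))
      fun z => tOf m j (sgn (ε (.inr j))) (P.Jc j (xb z).1) := by
  obtain ⟨Kc, hK⟩ := P218CN.exists_coneHubs m
  refine ⟨Kc, hK.mono fun a ha ε 𝒞 K P τ X _ _ _ ρ c al x xb h hρ h0 hr => ?_⟩
  exact ha _ _ _ (fun j => ε (.inr j)) _ _ _ P.cone P.C_nonneg P.small τ c _ _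
    (h.hb.clm (ContinuousLinearMap.fst ℂ _ X)) (h.lpx.clm (ContinuousLinearMap.fst ℂ _ X))
    (fun W z hz => mem_ball_zero_iff.2 ((norm_fst_le _).trans_lt ((h.mem W z hz).2.trans_le
      (by linarith)))) (fun z hz => mem_ball_zero_iff.2 ((norm_fst_le _).trans_lt
      ((h.memb z hz).trans_le (by linarith)))) (by rw [h0]; rfl) hr

end Vale.Agent.P218HC
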